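import Mathlib

/-!
# P308 : matchings as sets of edges versus matchings as subgraphs
-/

namespace Vale.Agent.P308.Variant

open SimpleGraph

variable {V : Type*} (G : SimpleGraph V)

/-- The subgraph spanned by a set of edges. -/
def subOf (F : Set (Sym2 V)) : G.Subgraph where
  verts := {v | ∃ e, e ∈ F ∧ e ∈ G.edgeSet ∧ v ∈ e}
  Adj a b := s(a, b) ∈ F ∧ G.Adj a b
  adj_sub h := h.2
  edge_vert {a b} h := ⟨s(a, b), h.1, (G.mem_edgeSet).2 h.2, Sym2.mem_mk_left a b⟩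
  symm := ⟨fun a b h => ⟨by rw [Sym2.eq_swap]; exact h.1, h.2.symm⟩⟩

lemma mem_verts_subOf (F : Set (Sym2 V)) (v : V) :
    v ∈ (subOf G F).verts ↔ ∃ e, e ∈ F ∧ e ∈ G.edgeSet ∧ v ∈ e := Iff.rfl

lemma adj_subOf (F : Set (Sym2 V)) (a b : V) :
    (subOf G F).Adj a b ↔ (s(a, b) ∈ F ∧ G.Adj a b) := Iff.rfl

/-- Perfect matchings: subgraphs inject into edge sets. -/
theorem pm_le [Finite V] :
    Set.ncard {M : G.Subgraph | M.IsPerfectMatching} ≤
      Set.ncard {M : Set (Sym2 V) | M ⊆ G.edgeSet ∧ ∀ v, ∃! e, e ∈ M ∧ v ∈ e} := by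
  refine Set.ncard_le_ncard_of_injOn (fun M : G.Subgraph => M.edgeSet) ?_ ?_ (Set.toFinite _)
  · intro M hM
    refine ⟨M.edgeSet_subset, fun v => ?_⟩
    obtain ⟨w, hw, huniq⟩ := hM.1 (hM.2 v)
    refine ⟨s(v, w), ⟨Subgraph.mem_edgeSet.2 hw, Sym2.mem_mk_left v w⟩, ?_⟩
    rintro e ⟨he, hv⟩
    obtain ⟨w', rfl⟩ := hv
    have := huniq w' (Subgraph.mem_edgeSet.1 he)
    rw [this]
  · intro M hM M' hM' h
    have h' : M.edgeSet = M'.edgeSet := h
    refine Subgraph.ext ?_ ?_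
    · ext v
      exact ⟨fun _ => hM'.2 v, fun _ => hM.2 v⟩
    · funext a b
      have : s(a, b) ∈ M.edgeSet ↔ s(a, b) ∈ M'.edgeSet := by rw [h']
      simpa [Subgraph.mem_edgeSet] using this

/-- Near-perfect matchings: edge sets inject into subgraphs. -/
theorem npm_le [Finite V] :
    Set.ncard {M : Set (Sym2 V) | M ⊆ G.edgeSet ∧
        (∀ v, ∀ e ∈ M, ∀ e' ∈ M, v ∈ e → v ∈ e' → e = e') ∧
        Set.ncard {v | ∀ e ∈ M, v ∉ e} = 2} ≤
      Set.ncard {M : G.Subgraph | M.IsMatching ∧ (M.verts)ᶜ.ncard = 2} := by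
  classical
  refine Set.ncard_le_ncard_of_injOn (fun F : Set (Sym2 V) => subOf G F) ?_ ?_ (Set.toFinite _)
  · rintro F ⟨hFE, hdis, hcard⟩
    refine ⟨?_, ?_⟩
    · intro v hv0
      obtain ⟨e, heF, heE, hv⟩ := (mem_verts_subOf G F v).1 hv0
      obtain ⟨w, rfl⟩ := hv
      refine ⟨w, (adj_subOf G F v w).2 ⟨heF, (G.mem_edgeSet).1 heE⟩, ?_⟩
      intro w' hw'
      obtain ⟨hw'F, -⟩ := (adj_subOf G F v w').1 hw'
      have := hdis v _ hw'F _ heF (Sym2.mem_mk_left v w') (Sym2.mem_mk_left v w)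
      exact Sym2.congr_right.1 this
    · have : ((subOf G F).verts)ᶜ = {v | ∀ e ∈ F, v ∉ e} := by
        ext v
        rw [Set.mem_compl_iff, mem_verts_subOf]
        constructor
        · intro h e he hv
          exact h ⟨e, he, hFE he, hv⟩
        · rintro h ⟨e, he, -, hv⟩
          exact h e he hv
      rw [this]; exact hcard
  · rintro F ⟨hFE, -, -⟩ F' ⟨hFE', -, -⟩ h
    have h' : subOf G F = subOf G F' := h
    have key : ∀ (A B : Set (Sym2 V)), A ⊆ G.edgeSet → subOf G A = subOf G B → A ⊆ B := by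
      intro A B hA hAB e he
      induction e using Sym2.ind with
      | _ a b =>
        have h1 : (subOf G A).Adj a b := (adj_subOf G A a b).2 ⟨he, (G.mem_edgeSet).1 (hA he)⟩
        rw [hAB] at h1
        exact ((adj_subOf G B a b).1 h1).1
    exact Set.Subset.antisymm (key F F' hFE h') (key F' F hFE' h'.symm)

end Vale.Agent.P308.Variant
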