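import Mathlib

/-!
# P308 : from an eigenvalue bound to the quadratic form bound
For a `d`-regular graph: if every eigenvalue of the adjacency matrix that has an eigenvector
orthogonal to the constants has absolute value at most `c`, then `‖A f‖ ≤ c ‖f‖` for all `f`
orthogonal to the constants.
-/

namespace Vale.Agent.P308.Variant

open Matrix Finset

variable {V : Type*} [Fintype V] [DecidableEq V]

omit [DecidableEq V] in
lemma symm_dot (A : Matrix V V ℝ) (hA : Aᵀ = A) (x y : V → ℝ) :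
    x ⬝ᵥ (A *ᵥ y) = (A *ᵥ x) ⬝ᵥ y := by
  rw [Matrix.dotProduct_mulVec, ← Matrix.mulVec_transpose, hA]

omit [DecidableEq V] in
lemma parseval (b : OrthonormalBasis V ℝ (EuclideanSpace ℝ V)) (g : V → ℝ) :
    ∑ j, ((⇑(b j) : V → ℝ) ⬝ᵥ g) ^ 2 = ∑ v, (g v) ^ 2 := by
  have h := b.sum_sq_norm_inner_right (WithLp.toLp 2 g)
  rw [EuclideanSpace.real_norm_sq_eq] at h
  rw [← h]
  refine Finset.sum_congr rfl fun j _ => ?_
  rw [Real.norm_eq_abs, sq_abs]
  congr 1
  simp [PiLp.inner_apply, dotProduct, mul_comm]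

omit [DecidableEq V] in
/-- One eigenvector: either the eigenvalue is small or the eigenvector is constant. -/
lemma eigen_alt (A : Matrix V V ℝ) (hA : Aᵀ = A) (d : ℝ)
    (hone : A *ᵥ (fun _ => (1:ℝ)) = fun _ => d) (c : ℝ)
    (h : ∀ (μ : ℝ) (f : V → ℝ), f ≠ 0 → ∑ v, f v = 0 → A *ᵥ f = μ • f → |μ| ≤ c)
    (lam : ℝ) (e : V → ℝ) (he : A *ᵥ e = lam • e) (f : V → ℝ) (hf : ∑ v, f v = 0) :
    |lam| ≤ c ∨ e ⬝ᵥ f = 0 := by
  classical
  rcases isEmpty_or_nonempty V with hV | hV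
  · right; simp [dotProduct]
  have hcard : (0:ℝ) < Fintype.card V := by exact_mod_cast Fintype.card_pos
  set m : ℝ := (∑ v, e v) / Fintype.card V with hm
  set g : V → ℝ := fun v => e v - m with hg
  have hsumg : ∑ v, g v = 0 := by
    simp only [hg, Finset.sum_sub_distrib, Finset.sum_const, Finset.card_univ, nsmul_eq_mul]
    rw [hm]; field_simp; ring
  have hge : g = e - m • (fun _ => (1:ℝ)) := by
    funext v; simp [hg]
  have hAg : A *ᵥ g = lam • e - (m * d) • (fun _ => (1:ℝ)) := by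
    rw [hge, Matrix.mulVec_sub, Matrix.mulVec_smul, he, hone]
    funext v; simp [mul_comm]
  -- the sum of `A g` vanishes
  have hs : ∑ v, (A *ᵥ g) v = 0 := by
    have h1 : (fun _ => (1:ℝ)) ⬝ᵥ (A *ᵥ g) = (A *ᵥ (fun _ => (1:ℝ))) ⬝ᵥ g := symm_dot A hA _ _
    rw [hone] at h1
    simp only [dotProduct, one_mul] at h1
    rw [h1, ← Finset.mul_sum, hsumg, mul_zero]
  have hmd : m * d = m * lam := by
    rw [hAg] at hs
    simp only [Pi.sub_apply, Pi.smul_apply, smul_eq_mul, mul_one, Finset.sum_sub_distrib,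
      Finset.sum_const, Finset.card_univ, nsmul_eq_mul, ← Finset.mul_sum] at hs
    have h2 : ∑ v, e v = m * Fintype.card V := by rw [hm]; field_simp
    rw [h2] at hs
    have h3 : (Fintype.card V : ℝ) * (m * lam - m * d) = 0 := by linarith
    rcases mul_eq_zero.mp h3 with h4 | h4
    · exact absurd h4 hcard.ne'
    · linarith
  have hAg' : A *ᵥ g = lam • g := by
    rw [hAg, hmd]
    funext v; simp [hg]; ring
  by_cases hg0 : g = 0
  · right
    have he' : ∀ v, e v = m := fun v => by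
      have := congrFun hg0 v
      simp only [hg, Pi.zero_apply] at this
      linarith
    simp only [dotProduct, he', ← Finset.mul_sum, hf, mul_zero]
  · left
    exact h lam g hg0 hsumg hAg'

theorem quad_of_eigen (A : Matrix V V ℝ) (hA : Aᵀ = A) (d : ℝ)
    (hone : A *ᵥ (fun _ => (1:ℝ)) = fun _ => d) (c : ℝ)
    (h : ∀ (μ : ℝ) (f : V → ℝ), f ≠ 0 → ∑ v, f v = 0 → A *ᵥ f = μ • f → |μ| ≤ c)
    (f : V → ℝ) (hf : ∑ v, f v = 0) :
    ∑ v, ((A *ᵥ f) v) ^ 2 ≤ c ^ 2 * ∑ v, (f v) ^ 2 := by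
  have hH : A.IsHermitian := by
    rw [Matrix.IsHermitian, Matrix.conjTranspose_eq_transpose_of_trivial, hA]
  set b := hH.eigenvectorBasis with hb
  rw [← parseval b (A *ᵥ f), ← parseval b f, Finset.mul_sum]
  refine Finset.sum_le_sum fun j _ => ?_
  have hej : A *ᵥ (⇑(b j) : V → ℝ) = hH.eigenvalues j • (⇑(b j) : V → ℝ) :=
    hH.mulVec_eigenvectorBasis j
  rw [symm_dot A hA, hej, smul_dotProduct, smul_eq_mul, mul_pow]
  rcases eigen_alt A hA d hone c h _ _ hej f hf with h1 | h1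
  · have : (hH.eigenvalues j) ^ 2 ≤ c ^ 2 := by
      rw [← sq_abs (hH.eigenvalues j)]
      exact pow_le_pow_left₀ (abs_nonneg _) h1 2
    exact mul_le_mul_of_nonneg_right this (sq_nonneg _)
  · rw [h1]; simp

end Vale.Agent.P308.Variant
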